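import Vale.Agent.P113.Bridge

namespace Vale.Agent.Results.P113.Full

open Vale.Agent.HaltNS

/-- Positive answer to Q1 of P113: force compilers exist for every computable viscosity. -/
theorem result : ∃ (a : T3) (O : Set T3), IsOpen O ∧ ∀ ν > 0, ComputableReal ν →
    ∃ (compile : Desc → Nat.Partrec.Code) (f : (M : Machine) → List (Fin M.K) → VF),
      Computable compile ∧ EventuallyPeriodic f ∧ ∀ (M : Machine) (w : List (Fin M.K)),
        (∀ i, Smooth (f M w i)) ∧ Computes (compile (describe M w)) (f M w) ∧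
        ∃ (u : VF) (p : ST), (∀ i, Smooth (u i)) ∧ Smooth p ∧
          (∀ T > 0, IsSolution ν (f M w) T u p ∧
            ∀ (v : VF) (q : ST), IsSolution ν (f M w) T v q →
              ∀ t ∈ Set.Icc 0 T, ∀ x, q t x = p t x ∧ ∀ i, v i t x = u i t x) ∧
          (∃ X, IsTrajectory u a X) ∧
          ∀ X, IsTrajectory u a X → ((∃ t ≥ 0, toT3 (X t) ∈ O) ↔ HaltsOn M w) := by
  refine ⟨0, P113.target, P113.isOpen_target, fun ν hν hc => ?_⟩
  obtain ⟨c, h1, h2⟩ := P113.compiler hc
  refine ⟨c, fun M w i t x => P113.force ν (P113.mdesc M) (w.map Fin.val) t x i, h1,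
    P113.eventuallyPeriodic_force ν, fun M w =>
      ⟨fun i => P113.smooth_comp (P113.smooth_force ν _ _) i, h2 _,
      fun i t x => P113.velocity (P113.mdesc M) (w.map Fin.val) t x i, fun _ _ => 0,
      fun i => P113.smooth_comp (P113.smooth_velocity _ _) i,
      ⟨fun _ _ _ => rfl, contDiff_const⟩, fun T hT =>
        ⟨P113.isSolution_velocity ν _ _ hT, fun v q hv =>
          P113.solution_unique hν hT (P113.isSolution_velocity ν _ _ hT) hv⟩,
      ⟨_, (P113.isTrajectory_iff _ _ _).2 (P113.isTrajectory_traj _ _)⟩, fun X hX => ?_⟩⟩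
  rw [P113.haltsOn_iff]
  exact P113.visits_iff _ _ ((P113.isTrajectory_iff _ _ _).1 hX)

end Vale.Agent.Results.P113.Full
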